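import Vale.Agent.P092.CLT.Main
import Vale.Agent.P092.CLT.Flip
import Vale.Agent.P092.CL.LegE
import Vale.Agent.P092.H99.CLX.Main
import Vale.Agent.P092.H21.S.Over

/-!
P092, TRACK H, all amplifications (helper21): the leg of a family of vectors with an extra property
`X` of the letters of points, its amplification and transport, the statements about the concrete
picture, and the assemblies `coreAllE_ofX`, `overStmt_ofX`.
-/

set_option linter.all false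

open scoped InnerProductSpace ENNReal LinearAlgebra.Projectivization ZeroAtInfty
open Filter Topology ContinuousLinearMap MeasureTheory TopologicalSpace

namespace Vale.Agent.P092.CL.T

open Vale.Agent.P092.CL
open Vale.Agent.P092.RC (Cm TRN Moore GG PG YY ampH ampH_ap ampW ampO ampW_union range_ampH
  amp_comm_iff adjV3 cj)
open Vale.Agent.P092.H35 (sp)
open Vale.Agent.P092.H303 (FormGroup)
open Vale.Agent.P092.H370.Po
open Vale.Agent.P092.H714.Cl (hf Frm)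
open Vale.Agent.P092.H416.CL (pt rho EP)
open Vale.Agent.P092.H325.CL (Sc Nmc ph_rho fin_rho xcCL)
open Vale.Agent.P092.SN (TVE)
open Vale.Agent.P092.H333.Amp
open Vale.Agent.P092.H85 (cdat)
open Vale.Agent.P092.SNT (TVEF TwF twF_flip tvE_amp tv_tri cleg_unamp CoreAllE)
open Vale.Agent.P092.SP.X (ampU ampU_ap)
open Vale.Agent.P092.H53.TwX (cjU)
open Vale.Agent.P092.H99.CLX (Xtra HasLegX OneStmtX XInv)
open Vale.Agent.P092.H34.Ind (Xset)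
open Vale.Agent.P092.H678.OV (Sys OverStmt)

/-! ### Legs of families with the extra property -/

section defs

variable {S P M V₁ V₂ : Type} [Group S] [MeasurableSpace V₁] [MeasurableSpace V₂]
  [TopologicalSpace S] [MulAction S P] [TopologicalSpace P] [CompactSpace P]
  [ContinuousConstSMul S P] [MulAction S M] [TopologicalSpace M] [CompactSpace M]
  [ContinuousConstSMul S M] [NormedAddCommGroup V₁] [NormedAddCommGroup V₂]

/-- the data of one leg of a family, with the extra property -/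
def HasLegFX (X : Xtra P M) (L : Lt S P M V₁ V₂) {E Γ K κ : Type} [Group E] [TopologicalSpace E]
    [Group Γ] [NormedAddCommGroup K] [InnerProductSpace ℂ K] [CompleteSpace K] [Fintype κ]
    (𝒰 : Ultrafilter ℕ) (ι : S →* E)
    (π : E →* (K →L[ℂ] K)) (lam : Γ →* (K →L[ℂ] K)) (W : Set (K →L[ℂ] K)) (Ω : κ → K)
    (m : Set Γ → (K →L[ℂ] K)) (q : Γ → S) : Prop :=
  ∃ (U11 : P → (C(P, ℂ) →ₗ[ℂ] (K →L[ℂ] K))) (p11 : ℝ)
    (U12 : P → (C(M, ℂ) →ₗ[ℂ] (K →L[ℂ] K))) (p12 : ℝ)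
    (U21 : M → (C(P, ℂ) →ₗ[ℂ] (K →L[ℂ] K))) (p21 : ℝ)
    (U22 : M → (C(M, ℂ) →ₗ[ℂ] (K →L[ℂ] K))) (p22 : ℝ),
    LegPF L 𝒰 ι π lam W Ω m q U11 p11 U12 p12 U21 p21 U22 p22 ∧ X U11 U21

/-- the extra property passes to amplifications -/
def XAmp (X : Xtra P M) : Prop :=
  ∀ {K : Type} [NormedAddCommGroup K] [InnerProductSpace ℂ K] [CompleteSpace K]
    (Q : Type) [Group Q] [Fintype Q]
    (U : P → (C(P, ℂ) →ₗ[ℂ] (K →L[ℂ] K))) (V : M → (C(P, ℂ) →ₗ[ℂ] (K →L[ℂ] K))),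
    X U V → X (fun c => ampU Q (U c)) (fun l => ampU Q (V l))

variable {X : Xtra P M} {L : Lt S P M V₁ V₂}

section one

variable {E Γ K κ : Type} [Group E] [TopologicalSpace E]
  [Group Γ] [NormedAddCommGroup K] [InnerProductSpace ℂ K] [CompleteSpace K] [Fintype κ]
  {𝒰 : Ultrafilter ℕ} {ι : S →* E} {π : E →* (K →L[ℂ] K)} {lam : Γ →* (K →L[ℂ] K)}
  {W : Set (K →L[ℂ] K)} {Ω : κ → K} {m : Set Γ → (K →L[ℂ] K)} {q : Γ → S}

theorem HasLegFX.base (h : HasLegFX X L 𝒰 ι π lam W Ω m q) : PBF L 𝒰 ι π lam W Ω m q := by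
  obtain ⟨U11, p11, U12, p12, U21, p21, U22, p22, h, -⟩ := h
  exact h.base

/-- **The amplified leg has one vector, with the extra property.** -/
theorem exists_legX_amp [OpensMeasurableSpace V₁] [OpensMeasurableSpace V₂] (hX : XAmp X)
    (hG : Geo L) (hN : NAMono L) (h : HasLegFX X L 𝒰 ι π lam W Ω m q) :
    ∃ n : ℕ, ∀ (Q : Type) [Group Q] [Fintype Q], n ≤ Fintype.card Q → ∀ j : κ ↪ Q,
      HasLegX X L 𝒰 ι (ampH Q π) (ampH Q lam) (ampW Q W) (ampO j Ω)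
        (fun S => H333.Amp.amp (Q := Q) (m S)) q := by
  obtain ⟨U11, p11, U12, p12, U21, p21, U22, p22, h, hx⟩ := h
  obtain ⟨n, hn⟩ := h.base.pic.exists_amp
  exact ⟨n, fun Q _ _ hQ j => ⟨_, p11, _, p12, _, p21, _, p22, leg_amp hG hN h j (hn Q hQ j),
    hX Q U11 U21 hx⟩⟩

end one

/-- **Transport.** -/
theorem tw_hasLegFX (hX : XInv X) {K K' κ : Type} [Fintype κ] [NormedAddCommGroup K]
    [InnerProductSpace ℂ K] [CompleteSpace K] [NormedAddCommGroup K'] [InnerProductSpace ℂ K']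
    [CompleteSpace K'] {u : K ≃ₗᵢ[ℂ] K'} {E Γ : Type} [Group E] [TopologicalSpace E] [Group Γ]
    {π : E →* (K →L[ℂ] K)} {lam : Γ →* (K →L[ℂ] K)} {W : Set (K →L[ℂ] K)} {Ω : κ → K}
    {π' : E →* (K' →L[ℂ] K')} {lam' : Γ →* (K' →L[ℂ] K')} {W' : Set (K' →L[ℂ] K')}
    {Ω' : κ → K'} {q : Γ → S} {𝒰 : Ultrafilter ℕ} {m : Set Γ → (K →L[ℂ] K)} {ι : S →* E}
    (t : TwF u π lam W Ω π' lam' W' Ω') (h : HasLegFX X L 𝒰 ι π lam W Ω m q) :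
    HasLegFX X L 𝒰 ι π' lam' W' Ω' (fun S => cj u (m S)) q := by
  obtain ⟨U11, p11, U12, p12, U21, p21, U22, p22, h, hx⟩ := h
  exact ⟨_, p11, _, p12, _, p21, _, p22, tw_legPF t h, hX u U11 U21 hx⟩

end defs

/-! ### The concrete picture -/

section stmts

open Vale.Agent.P092.SR Vale.Agent.P092.H160 Vale.Agent.P092.H103 Vale.Agent.P092.H962
open Vale.Agent.P092.SDT (sT sT_sq sT_adj sT_V sT_A sT_B)

variable {S P M V₁ V₂ : Type} [Group S] [MeasurableSpace V₁] [MeasurableSpace V₂]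
  [TopologicalSpace S] [MulAction S P] [TopologicalSpace P] [CompactSpace P]
  [ContinuousConstSMul S P] [MulAction S M] [TopologicalSpace M] [CompactSpace M]
  [ContinuousConstSMul S M] [NormedAddCommGroup V₁] [NormedAddCommGroup V₂]

/-- both legs, all amplifications, with the extra property -/
def ExStmtTX (X : Xtra P M) (L : Lt S P M V₁ V₂) {E : Type} [Group E] [TopologicalSpace E]
    [IsTopologicalGroup E] [LocallyCompactSpace E] [SecondCountableTopology E] [T2Space E]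
    (ι : S →* E) : Prop :=
  ∀ [MeasurableSpace E] [BorelSpace E] {Γ : Subgroup E} [DiscreteTopology Γ] [Countable Γ]
    [MeasurableSpace (E ⧸ Γ)] [BorelSpace (E ⧸ Γ)] {ν : Measure (E ⧸ Γ)}
    [IsProbabilityMeasure ν] (hν : ∀ g : E, ν.map (fun x => g • x) = ν)
    (_ : H515.St.IsLattice Γ) (_ : ∀ g : Γ, g ≠ 1 → Set.Infinite {y : Γ | ∃ h, y = h * g * h⁻¹})
    {Λ : Type} [Group Λ] [Countable Λ]
    (_ : ∀ g : Λ, g ≠ 1 → Set.Infinite {y : Λ | ∃ h, y = h * g * h⁻¹})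
    {I : Type} [Fintype I] {α : Γ → (Ell2 (I × Λ) →L[ℂ] Ell2 (I × Λ))} (hα : AF α),
    ∃ (𝒰 : Ultrafilter ℕ) (κ₁ κ₂ : Type) (_ : Fintype κ₁) (_ : Fintype κ₂)
      (Ω₁ : κ₁ → Lp (HH (PT α α α)) 2 (cdat ν hν).μ) (Ω₂ : κ₂ → Lp (HH (PT α α α)) 2 (cdat ν hν).μ)
      (m₁ m₂ : Set Γ → (Lp (HH (PT α α α)) 2 (cdat ν hν).μ →L[ℂ]
        Lp (HH (PT α α α)) 2 (cdat ν hν).μ)) (q₁ q₂ : Γ → S),
      HasLegFX X L 𝒰 ι (H34.Ind.pi (cdat ν hν) (V := V3 hα hα hα) (adjV3 hα))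
        (H34.Ind.lam (cdat ν hν) (A3R hα hα hα))
        (Xset (cdat ν hν) (HH (PT α α α)) ∪
          Set.range (H34.Ind.lam (cdat ν hν) (B3R hα hα hα))) Ω₁ m₁ q₁ ∧
      HasLegFX X L 𝒰 ι (H34.Ind.pi (cdat ν hν) (V := V3 hα hα hα) (adjV3 hα))
        (H34.Ind.lam (cdat ν hν) (B3R hα hα hα))
        (Xset (cdat ν hν) (HH (PT α α α)) ∪
          Set.range (H34.Ind.lam (cdat ν hν) (A3R hα hα hα))) Ω₂ m₂ q₂ ∧
      (∀ γ, q₁ γ ∈ L.Z → γ = 1) ∧ (∀ γ, q₂ γ ∈ L.Z → γ = 1)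

/-- the first leg, all amplifications, with the extra property -/
def ExHalfTX (X : Xtra P M) (L : Lt S P M V₁ V₂) {E : Type} [Group E] [TopologicalSpace E]
    [IsTopologicalGroup E] [LocallyCompactSpace E] [SecondCountableTopology E] [T2Space E]
    (ι : S →* E) : Prop :=
  ∀ [MeasurableSpace E] [BorelSpace E] {Γ : Subgroup E} [DiscreteTopology Γ] [Countable Γ]
    [MeasurableSpace (E ⧸ Γ)] [BorelSpace (E ⧸ Γ)] {ν : Measure (E ⧸ Γ)}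
    [IsProbabilityMeasure ν] (hν : ∀ g : E, ν.map (fun x => g • x) = ν)
    (_ : H515.St.IsLattice Γ) (_ : ∀ g : Γ, g ≠ 1 → Set.Infinite {y : Γ | ∃ h, y = h * g * h⁻¹})
    {Λ : Type} [Group Λ] [Countable Λ]
    (_ : ∀ g : Λ, g ≠ 1 → Set.Infinite {y : Λ | ∃ h, y = h * g * h⁻¹})
    {I : Type} [Fintype I] {α : Γ → (Ell2 (I × Λ) →L[ℂ] Ell2 (I × Λ))} (hα : AF α),
    ∃ (𝒰 : Ultrafilter ℕ) (κ : Type) (_ : Fintype κ)
      (Ω : κ → Lp (HH (PT α α α)) 2 (cdat ν hν).μ)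
      (m : Set Γ → (Lp (HH (PT α α α)) 2 (cdat ν hν).μ →L[ℂ]
        Lp (HH (PT α α α)) 2 (cdat ν hν).μ)) (q : Γ → S),
      HasLegFX X L 𝒰 ι (H34.Ind.pi (cdat ν hν) (V := V3 hα hα hα) (adjV3 hα))
        (H34.Ind.lam (cdat ν hν) (A3R hα hα hα))
        (Xset (cdat ν hν) (HH (PT α α α)) ∪
          Set.range (H34.Ind.lam (cdat ν hν) (B3R hα hα hα))) Ω m q ∧
      (∀ γ, q γ ∈ L.Z → γ = 1)

/-- both legs of an irreducible system, with the extra property -/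
def ExStmtSX (X : Xtra P M) (L : Lt S P M V₁ V₂) {E : Type} [Group E] [TopologicalSpace E]
    [IsTopologicalGroup E] [LocallyCompactSpace E] [SecondCountableTopology E] [T2Space E]
    (ι : S →* E) : Prop :=
  ∀ [MeasurableSpace E] [BorelSpace E] {Γ : Subgroup E} [DiscreteTopology Γ] [Countable Γ]
    [MeasurableSpace (E ⧸ Γ)] [BorelSpace (E ⧸ Γ)] {ν : Measure (E ⧸ Γ)}
    [IsProbabilityMeasure ν] (hν : ∀ g : E, ν.map (fun x => g • x) = ν)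
    (_ : ∀ g : Γ, g ≠ 1 → Set.Infinite {y : Γ | ∃ h, y = h * g * h⁻¹})
    {ℋ : Type} [NormedAddCommGroup ℋ] [InnerProductSpace ℂ ℋ] [CompleteSpace ℋ]
    {V R₁ R₂ : Γ →* (ℋ →L[ℂ] ℋ)} (_ : Sys V R₁ R₂) (hV : ∀ v, adjoint (V v) = V v⁻¹),
    ∃ (𝒰 : Ultrafilter ℕ) (κ₁ κ₂ : Type) (_ : Fintype κ₁) (_ : Fintype κ₂)
      (Ω₁ : κ₁ → Lp ℋ 2 (cdat ν hν).μ) (Ω₂ : κ₂ → Lp ℋ 2 (cdat ν hν).μ)
      (m₁ m₂ : Set Γ → (Lp ℋ 2 (cdat ν hν).μ →L[ℂ] Lp ℋ 2 (cdat ν hν).μ)) (q₁ q₂ : Γ → S),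
      HasLegFX X L 𝒰 ι (H34.Ind.pi (cdat ν hν) (V := V) hV)
        (H34.Ind.lam (cdat ν hν) R₁)
        (Xset (cdat ν hν) ℋ ∪ Set.range (H34.Ind.lam (cdat ν hν) R₂)) Ω₁ m₁ q₁ ∧
      HasLegFX X L 𝒰 ι (H34.Ind.pi (cdat ν hν) (V := V) hV)
        (H34.Ind.lam (cdat ν hν) R₂)
        (Xset (cdat ν hν) ℋ ∪ Set.range (H34.Ind.lam (cdat ν hν) R₁)) Ω₂ m₂ q₂ ∧
      (∀ γ, q₁ γ ∈ L.Z → γ = 1) ∧ (∀ γ, q₂ γ ∈ L.Z → γ = 1)

/-- **The second leg is the flip of the first one.** -/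
theorem exTX_of_half {X : Xtra P M} (hX : XInv X) {L : Lt S P M V₁ V₂} {E : Type} [Group E]
    [TopologicalSpace E] [IsTopologicalGroup E] [LocallyCompactSpace E]
    [SecondCountableTopology E] [T2Space E] {ι : S →* E} (h : ExHalfTX X L ι) :
    ExStmtTX X L ι := by
  intro _ _ Γ _ _ _ _ ν _ hν hΓ hicc Λ _ _ hΛ I _ α hα
  obtain ⟨𝒰, κ, iκ, Ω, m, q, l1, h1⟩ := h (Γ := Γ) hν hΓ hicc hΛ hα
  exact ⟨𝒰, κ, κ, iκ, iκ, Ω, _, m, _, q, q, l1,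
    tw_hasLegFX hX
      (twF_flip hν (sT_sq hα) (sT_adj hα) (sT_V hα) (sT_A hα) (sT_B hα) (adjV3 hα) Ω) l1,
    h1, h1⟩

end stmts

/-! ### The abstract part: both legs -/

section abs

variable {n : Type} [Fintype n] [DecidableEq n] {k : Type} [NontriviallyNormedField k]
  [ProperSpace k] {σ : k →+* k} [Fact (Continuous σ)] {ε : k} {J : Matrix n n k} {N r : ℕ}
  {M V₁ V₂ : Type} [MeasurableSpace V₁] [MeasurableSpace V₂] [NormedAddCommGroup V₁]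
  [NormedAddCommGroup V₂] [OpensMeasurableSpace V₁] [OpensMeasurableSpace V₂]
  [TopologicalSpace M] [CompactSpace M] [MulAction (FormGroup σ J) M]
  [ContinuousConstSMul (FormGroup σ J) M] {L : Lt (FormGroup σ J) (SGr σ J 1) M V₁ V₂}
  {X : Xtra (SGr σ J 1) M}
  {E Γ K : Type} [Group E] [TopologicalSpace E] [Group Γ] [NormedAddCommGroup K]
  [InnerProductSpace ℂ K] [CompleteSpace K] {ι : FormGroup σ J →* E} {π : E →* (K →L[ℂ] K)}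
  {lam₁ lam₂ : Γ →* (K →L[ℂ] K)} {Z : Set (K →L[ℂ] K)}

/-- **Two legs of families with the extra property give two commuting classical legs.** -/
theorem clegs_ofX [Countable Γ] (e : n ≃ Fin (N + 1)) (hF : Frm σ ε J) (hW : WI σ J r)
    (hr : 2 ≤ r) (hG : Geo L) (hA : Adm L ι) (hZ : Sc e L) (hN : Nmc e L)
    (hOne : OneStmtX X L) (hXA : XAmp X) (hCls : ClsStmt e L) (hNA : NAMono L)
    {κ κ₁ κ₂ : Type} [Fintype κ] [Fintype κ₁] [Fintype κ₂] {Ω : κ → K} {Ω₁ : κ₁ → K} {Ω₂ : κ₂ → K}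
    (hp : RC.Pic2F π lam₁ lam₂ Z Ω) (tv : TVEF π lam₁ (Z ∪ Set.range lam₂) Ω)
    {𝒰₁ 𝒰₂ : Ultrafilter ℕ} {m₁ m₂ : Set Γ → (K →L[ℂ] K)} {q₁ q₂ : Γ → FormGroup σ J}
    (l1 : HasLegFX X L 𝒰₁ ι π lam₁ (Z ∪ Set.range lam₂) Ω₁ m₁ q₁)
    (l2 : HasLegFX X L 𝒰₂ ι π lam₂ (Z ∪ Set.range lam₁) Ω₂ m₂ q₂)
    (i1 : ∀ γ, q₁ γ ∈ L.Z → γ = 1) (i2 : ∀ γ, q₂ γ ∈ L.Z → γ = 1) (p1 : L.PH q₁) (p2 : L.PH q₂)
    (f1 : ∀ C : ℝ, {γ | L.nm (q₁ γ) ≤ C}.Finite) (f2 : ∀ C : ℝ, {γ | L.nm (q₂ γ) ≤ C}.Finite) :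
    ∃ Q₁ Q₂ : C₀(PG k (N + 1), ℂ) →⋆ₙₐ[ℂ] (K →L[ℂ] K),
      H264.Cl.CLeg π lam₁ (Z ∪ Set.range lam₂)
        (SN.qP (fun γ => rho e σ J (q₁ γ)) (ph_rho hZ p1)) Q₁ ∧
      H264.Cl.CLeg π lam₂ (Z ∪ Set.range lam₁)
        (SN.qP (fun γ => rho e σ J (q₂ γ)) (ph_rho hZ p2)) Q₂ ∧
      ∀ ψ φ, Commute (Q₁ ψ) (Q₂ φ) := by
  obtain ⟨n₁, g₁⟩ := exists_legX_amp hXA hG hNA l1
  obtain ⟨n₂, g₂⟩ := exists_legX_amp hXA hG hNA l2
  obtain ⟨n₃, g₃⟩ := hp.leg₁.exists_amp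
  obtain ⟨Q, _, _, ⟨jj⟩, hQ⟩ := RC.exists_grp (κ ⊕ κ₁ ⊕ κ₂) (n₁ + n₂ + n₃)
  obtain ⟨j, -⟩ : ∃ j : κ ↪ Q, True := ⟨Function.Embedding.inl.trans jj, trivial⟩
  obtain ⟨j₁, -⟩ : ∃ j : κ₁ ↪ Q, True :=
    ⟨(Function.Embedding.inl.trans Function.Embedding.inr).trans jj, trivial⟩
  obtain ⟨j₂, -⟩ : ∃ j : κ₂ ↪ Q, True :=
    ⟨(Function.Embedding.inr.trans Function.Embedding.inr).trans jj, trivial⟩
  have L1 := g₁ Q (by omega) j₁
  have L2 := g₂ Q (by omega) j₂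
  have P1 := g₃ Q (by omega) j
  have T1 : TVE (ampH Q π) (ampH Q lam₁) (ampW Q (Z ∪ Set.range lam₂)) (ampO j Ω) := tvE_amp tv j
  obtain ⟨E₁, F₁, c1⟩ := hOne 𝒰₁ ι _ _ _ _ _ q₁ L1
  obtain ⟨E₂, F₂, c2⟩ := hOne 𝒰₂ ι _ _ _ _ _ q₂ L2
  obtain ⟨τ₁, P, hP⟩ := hCls 𝒰₁ ι _ _ _ _ _ q₁ E₁ F₁ c1
  obtain ⟨τ₂, R, hR⟩ := hCls 𝒰₂ ι _ _ _ _ _ q₂ E₂ F₂ c2
  have C1 := cleg_of e hP hA.sur (ph_rho hZ p1) (fun γ h => i1 γ (z_of_sp e hG h)) (fin_rho hN f1)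
  have C2 := cleg_of e hR hA.sur (ph_rho hZ p2) (fun γ h => i2 γ (z_of_sp e hG h)) (fin_rho hN f2)
  have a2 := c2.leg.base.pic.adjL
  have hc : ∀ ψ φ, Commute (P ψ) (R φ) := by
    rw [ampW_union, ← range_ampH] at P1 T1 hP hR
    intro ψ φ
    exact xcCL e hF hW hr P1 (fun Y h1 h2 h => T1 Y ⟨h1, h2⟩ (ι h)) a2 (ph_rho hZ p1)
      (ph_rho hZ p2) (fin_rho hN f1) hP hR ψ φ
  obtain ⟨P', e1, h1⟩ := cleg_unamp C1
  obtain ⟨R', e2, h2⟩ := cleg_unamp C2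
  refine ⟨P', R', h1, h2, fun ψ φ => ?_⟩
  have h3 := hc ψ φ
  rw [e1, e2] at h3
  exact amp_comm_iff.1 h3

end abs

/-! ### The concrete picture -/

section conc

open Vale.Agent.P092.SR Vale.Agent.P092.H160 Vale.Agent.P092.H103 Vale.Agent.P092.H962
open Vale.Agent.P092.H458.OV (pic2_of)

variable {n : Type} [Fintype n] [DecidableEq n] {k : Type} [NontriviallyNormedField k]
  [ProperSpace k] {σ : k →+* k} [Fact (Continuous σ)] {ε : k} {J : Matrix n n k} {N r : ℕ}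
  {M V₁ V₂ : Type} [MeasurableSpace V₁] [MeasurableSpace V₂] [NormedAddCommGroup V₁]
  [NormedAddCommGroup V₂] [OpensMeasurableSpace V₁] [OpensMeasurableSpace V₂]
  [TopologicalSpace M] [CompactSpace M] [MulAction (FormGroup σ J) M]
  [ContinuousConstSMul (FormGroup σ J) M] {L : Lt (FormGroup σ J) (SGr σ J 1) M V₁ V₂}
  {X : Xtra (SGr σ J 1) M}

/-- **Assembly, all amplifications.** -/
theorem coreAllE_ofX {E : Type} [Group E] [TopologicalSpace E] [IsTopologicalGroup E]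
    [LocallyCompactSpace E] [SecondCountableTopology E] [T2Space E] {ι : FormGroup σ J →* E}
    (e : n ≃ Fin (N + 1)) (hF : Frm σ ε J) (hW : WI σ J r) (hr : 2 ≤ r) (hG : Geo L)
    (hA : Adm L ι) (hZ : Sc e L) (hN : Nmc e L) (hOne : OneStmtX X L) (hXA : XAmp X)
    (hCls : ClsStmt e L) (hNA : NAMono L) (hEx : ExStmtTX X L ι) : CoreAllE E := by
  haveI : NoncompactSpace E := nc_E hG hA
  intro Γ hΓ hicc Λ _ _ hΛ n' p hpj θ
  letI : MeasurableSpace E := borel _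
  haveI : BorelSpace E := ⟨rfl⟩
  haveI hd : DiscreteTopology Γ := hΓ.disc
  haveI hc : Countable Γ := H790.countable_of_discrete (E := E) Γ
  letI : MeasurableSpace (E ⧸ Γ) := borel _
  haveI : BorelSpace (E ⧸ Γ) := ⟨rfl⟩
  obtain ⟨ν, hP', hν⟩ := H515.IsLattice.exists_prob (Λ := Γ) ⟨hΓ.disc, hΓ.covol⟩
  have hα : AF (H103.alf θ) := H103.af_of hicc hpj θ
  obtain ⟨m, m', ξ, hT⟩ := H962.exists_tri hα hα hα hΛ
  obtain ⟨B, b, hB⟩ := H421.HsT.exists_basisHH (P := PT (H103.alf θ) (H103.alf θ) (H103.alf θ))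
  have p2 := RC.pic2F_HH hν hα hα hα hicc hΛ (adjV3 hα) hT
  have tv := tv_tri hν (adjV3 hα) b hT
  obtain ⟨𝒰, κ₁, κ₂, _, _, Ω₁, Ω₂, m₁, m₂, q₁, q₂, l1, l2, i1, i2⟩ :=
    hEx (Γ := Γ) hν hΓ hicc hΛ hα
  obtain ⟨Q₁, Q₂, h1, h2, h12⟩ := clegs_ofX e hF hW hr hG hA hZ hN hOne hXA hCls hNA p2 tv l1 l2
    i1 i2 l1.base.ph l2.base.ph l1.base.fin l2.base.fin
  exact H264.Amp.canonM_of_over hicc hΛ hpj θ rfl hα (H264.Amp.over_of_legs hν hT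
    (X := H34.Ind.Xset (cdat ν hν) (HH (PT (H103.alf θ) (H103.alf θ) (H103.alf θ))))
    (fun S hS => ⟨S, hS, rfl⟩) h1 h2 h12)

/-- **Assembly, irreducible systems.** -/
theorem overStmt_ofX {E : Type} [Group E] [TopologicalSpace E] [IsTopologicalGroup E]
    [LocallyCompactSpace E] [SecondCountableTopology E] [T2Space E] {ι : FormGroup σ J →* E}
    (e : n ≃ Fin (N + 1)) (hF : Frm σ ε J) (hW : WI σ J r) (hr : 2 ≤ r) (hG : Geo L)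
    (hA : Adm L ι) (hZ : Sc e L) (hN : Nmc e L) (hOne : OneStmtX X L) (hXA : XAmp X)
    (hCls : ClsStmt e L) (hNA : NAMono L) (hEx : ExStmtSX X L ι) : OverStmt E := by
  haveI : NoncompactSpace E := nc_E hG hA
  intro Γ hΓ hicc ℋ _ _ _ V R₁ R₂ hy
  letI : MeasurableSpace E := borel _
  haveI : BorelSpace E := ⟨rfl⟩
  haveI hd : DiscreteTopology Γ := hΓ.disc
  haveI hc : Countable Γ := H790.countable_of_discrete (E := E) Γ
  letI : MeasurableSpace (E ⧸ Γ) := borel _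
  haveI : BorelSpace (E ⧸ Γ) := ⟨rfl⟩
  obtain ⟨ν, hP', hν⟩ := H515.IsLattice.exists_prob (Λ := Γ) ⟨hΓ.disc, hΓ.covol⟩
  obtain ⟨κ₁, _, ξ₁, hT₁, -⟩ := hy.t₁
  obtain ⟨I', hI, ⟨b⟩⟩ := H264.Amp.exists_basis (H264.Amp.pars_of_tri hT₁)
  have p2 := pic2_of hν hy hT₁
  have tv := tv_tri hν hT₁.adjV b hT₁
  obtain ⟨𝒰, κ₁, κ₂, _, _, Ω₁, Ω₂, m₁, m₂, q₁, q₂, l1, l2, i1, i2⟩ :=
    hEx (Γ := Γ) hν hicc hy hT₁.adjV
  obtain ⟨Q₁, Q₂, h1, h2, h12⟩ := clegs_ofX e hF hW hr hG hA hZ hN hOne hXA hCls hNA p2 tv l1 l2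
    i1 i2 l1.base.ph l2.base.ph l1.base.fin l2.base.fin
  exact H264.Amp.over_of_legs hν hT₁ (X := H34.Ind.Xset (cdat ν hν) ℋ)
    (fun S hS => ⟨S, hS, rfl⟩) h1 h2 h12

end conc

end Vale.Agent.P092.CL.T
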